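import Vale.Agent.P281Z.Hg.EhrA
import Vale.Agent.P281.H152.K.Tot

/-!
# P002: the theorem of Ehresmann, topological form
-/

open scoped Manifold ContDiff Topology
open Set Filter TopologicalSpace Topology Bundle
open Vale.Agent.P281.H152.K (IsProd totCharted totManifold exists_compl)
open Vale.Agent.P281.H64 (Cm)
open Vale.Agent.P281Z.Hg.Eh (triv)

noncomputable section

namespace Vale.Agent.P002G

theorem prodChart {p d : ℕ} {Z Y : Type} [TopologicalSpace Z] [ChartedSpace (Cm (p + d)) Z]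
    [IsManifold 𝓘(ℂ, Cm (p + d)) ω Z] [TopologicalSpace Y] {f : Z → Y} (hf : Continuous f)
    {χ : OpenPartialHomeomorph Y (Cm p)} {x : Z} (hx : f x ∈ χ.source)
    (hG : ContDiffAt ℂ ω (fun u => χ (f ((chartAt (Cm (p + d)) x).symm u)))
      (chartAt (Cm (p + d)) x x))
    (hG' : Function.Surjective (fderiv ℂ (fun u => χ (f ((chartAt (Cm (p + d)) x).symm u)))
      (chartAt (Cm (p + d)) x x))) :
    ∃ c : OpenPartialHomeomorph Z (Cm p × Cm d), x ∈ c.source ∧ IsProd f χ c := by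
  set φ := chartAt (Cm (p + d)) x with hφdef
  have hφ : φ ∈ atlas (Cm (p + d)) Z := chart_mem_atlas _ x
  have hxφ : x ∈ φ.source := mem_chart_source _ x
  have hφm : φ ∈ IsManifold.maximalAtlas 𝓘(ℂ, Cm (p + d)) ω Z :=
    IsManifold.subset_maximalAtlas hφ
  set G : Cm (p + d) → Cm p := fun u => χ (f (φ.symm u)) with hGdef
  obtain ⟨l, L, hL⟩ := exists_compl _ hG'
  have hω : (ω : WithTop ℕ∞) ≠ 0 := by simp
  set H : Cm (p + d) → Cm p × Cm d := fun u => (G u, l u) with hHdef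
  have hH : ContDiffAt ℂ ω H (φ x) := hG.prodMk l.contDiff.contDiffAt
  have hH' : HasFDerivAt H (L : Cm (p + d) →L[ℂ] Cm p × Cm d) (φ x) := by
    have h1 : HasFDerivAt G (fderiv ℂ G (φ x)) (φ x) := (hG.differentiableAt hω).hasFDerivAt
    have h2 := h1.prodMk (l.hasFDerivAt (x := φ x))
    have h3 : (L : Cm (p + d) →L[ℂ] Cm p × Cm d) = (fderiv ℂ G (φ x)).prod l := by
      ext1 u
      exact hL u
    rw [h3]
    exact h2
  set e := hH.toOpenPartialHomeomorph H hH' hω with he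
  have hex : φ x ∈ e.source := hH.mem_toOpenPartialHomeomorph_source hH' hω
  have hcoe : ∀ u, e u = H u := fun u => rfl
  have hes : ContDiffAt ℂ ω e.symm (H (φ x)) := hH.to_localInverse hH' hω
  set c0 : OpenPartialHomeomorph Z (Cm p × Cm d) := φ ≫ₕ e with hc0
  have hxc : x ∈ c0.source := by
    rw [hc0, OpenPartialHomeomorph.trans_source]
    exact ⟨hxφ, hex⟩
  have h0 : c0 x = H (φ x) := rfl
  -- `c0` and its inverse are analytic near `x`
  have hA : ContMDiffAt 𝓘(ℂ, Cm (p + d)) 𝓘(ℂ, Cm p × Cm d) ω c0 x := by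
    have h1 : ContMDiffAt 𝓘(ℂ, Cm (p + d)) 𝓘(ℂ, Cm (p + d)) ω φ x :=
      contMDiffAt_of_mem_maximalAtlas hφm hxφ
    exact ContMDiffAt.comp (g := H) x hH.contMDiffAt h1
  have hB : ContMDiffAt 𝓘(ℂ, Cm p × Cm d) 𝓘(ℂ, Cm (p + d)) ω c0.symm (c0 x) := by
    have h1 : ContMDiffAt 𝓘(ℂ, Cm p × Cm d) 𝓘(ℂ, Cm (p + d)) ω e.symm (c0 x) := hes.contMDiffAt
    have h2 : ContMDiffAt 𝓘(ℂ, Cm (p + d)) 𝓘(ℂ, Cm (p + d)) ω φ.symm (e.symm (c0 x)) := by
      have h3 : e.symm (c0 x) = φ x := e.left_inv hex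
      rw [h3]
      exact contMDiffAt_symm_of_mem_maximalAtlas hφm (φ.map_source hxφ)
    exact ContMDiffAt.comp (g := φ.symm) (c0 x) h2 h1
  have hA1 := (contMDiffAt_iff_contMDiffAt_nhds (by simp)).1 hA
  have hB1 := (contMDiffAt_iff_contMDiffAt_nhds (by simp)).1 hB
  have hB2 : ∀ᶠ z in 𝓝 x, ContMDiffAt 𝓘(ℂ, Cm p × Cm d) 𝓘(ℂ, Cm (p + d)) ω c0.symm (c0 z) :=
    (c0.continuousAt hxc).eventually hB1
  have hC : ∀ᶠ z in 𝓝 x, f z ∈ χ.source :=
    hf.continuousAt (χ.open_source.mem_nhds hx)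
  obtain ⟨W, hW, hWo, hxW⟩ := _root_.eventually_nhds_iff.1 (hA1.and (hB2.and hC))
  refine ⟨c0.restrOpen W hWo, ⟨hxc, hxW⟩, ⟨?_, ?_, ?_⟩⟩
  · rintro z ⟨hz, hzW⟩
    refine ⟨(hW z hzW).2.2, ?_⟩
    show χ (f (φ.symm (φ z))) = χ (f z)
    rw [hc0, OpenPartialHomeomorph.trans_source] at hz
    rw [φ.left_inv hz.1]
  · rintro z ⟨hz, hzW⟩
    exact (hW z hzW).1.contMDiffWithinAt
  · intro q hq
    have h1 : c0.symm q ∈ c0.source ∩ W := (c0.restrOpen W hWo).map_target hq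
    have h2 : c0 (c0.symm q) = q := (c0.restrOpen W hWo).right_inv hq
    have h3 := (hW _ h1.2).2.1
    rw [h2] at h3
    exact h3.contMDiffWithinAt

theorem ehr {p d : ℕ} {X Y : Type} [TopologicalSpace X] [ChartedSpace (Cm (p + d)) X]
    [TopologicalSpace Y] [T2Space X] [CompactSpace X] [IsManifold 𝓘(ℂ, Cm (p + d)) ω X]
    [T2Space Y] {f : X → Y} (hf : Continuous f) (χ : OpenPartialHomeomorph Y (Cm p)) {U : Set Y}
    (hU : IsOpen U) {a : Y} (ha : a ∈ U) (hχ : a ∈ χ.source)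
    (hc : ∀ x, f x ∈ χ.source → f x ∈ U →
      ∃ c : OpenPartialHomeomorph X (Cm p × Cm d), x ∈ c.source ∧ IsProd f χ c)
    {x₀ : X} (hx₀ : f x₀ = a) :
    ∃ (W : Set Y) (r : X → X) (Φ : Y → X → X), W ⊆ U ∧ IsOpen W ∧ a ∈ W ∧
      (∀ t ∈ W, ∀ m, f m = a → f (Φ t m) = t ∧ r (Φ t m) = m) ∧
      (∀ x, f x ∈ W → f (r x) = a ∧ Φ (f x) (r x) = x) ∧ (∀ x, f x ∈ W → ContinuousAt r x) ∧
      ∀ t ∈ W, ∀ m, f m = a →
        ContinuousWithinAt (fun k : Y × X => Φ k.1 k.2) {k | f k.2 = a} (t, m) := by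
  classical
  let O : Opens X := ⟨f ⁻¹' (χ.source ∩ U), (χ.open_source.inter hU).preimage hf⟩
  have hO : ∀ x, x ∈ O ↔ f x ∈ χ.source ∧ f x ∈ U := fun _ => Iff.rfl
  choose cc c1 c2 using fun x : O => hc x.1 x.2.1 x.2.2
  let : ChartedSpace (Cm p × Cm d) O := totCharted O cc c1
  have : IsManifold 𝓘(ℝ, Cm p × Cm d) ∞ O := totManifold O cc c1 c2
  have : SecondCountableTopology X := ChartedSpace.secondCountable_of_sigmaCompact (Cm (p + d)) X
  have hs : ∀ x y : O, y ∈ (chartAt (Cm p × Cm d) x).source ↔ y.1 ∈ (cc x).source := fun x y =>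
    Set.ext_iff.1 ((cc x).subtypeRestr_source ⟨x⟩) y
  have hP : ∀ x : O, ∀ y ∈ (chartAt (Cm p × Cm d) x).source,
      (chartAt (Cm p × Cm d) x y).1 = χ (f y.1) := fun x y hy => ((c2 x).fst y.1 ((hs x y).1 hy)).2
  have hm : ∀ x, f x = a → x ∈ O := fun x hx => (hO x).2 (hx ▸ ⟨hχ, ha⟩)
  have hP0 : ∀ y : O, χ (f y.1) = χ a → f y.1 = a := fun y hy => χ.injOn y.2.1 hχ hy
  obtain ⟨N, r, Φ, n1, n2, h1, h2, h3, h4, h5⟩ := triv (H := Cm d) (t0 := χ a) hP (by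
    rw [Topology.IsEmbedding.subtypeVal.isCompact_iff, show Subtype.val ''
      ((fun y : O => χ (f y.1)) ⁻¹' {χ a}) = f ⁻¹' {a} from Set.ext fun x =>
        ⟨fun ⟨y, b, c⟩ => c ▸ hP0 y b, fun b => ⟨⟨x, hm x b⟩, congrArg χ b, rfl⟩⟩]
    exact (isClosed_singleton.preimage hf).isCompact) fun O' o1 o2 => by
    have k1 : IsClosed (f '' (Subtype.val '' O')ᶜ) := hf.isClosedMap _
      (O.isOpen.isOpenMap_subtype_val _ o1).isClosed_compl
    have k2 : a ∉ f '' (Subtype.val '' O')ᶜ := fun ⟨x, b, c⟩ =>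
      b ⟨⟨x, hm x c⟩, o2 (congrArg χ c), rfl⟩
    filter_upwards [(χ.tendsto_symm hχ).eventually (k1.isOpen_compl.mem_nhds k2)] with t ht y hy
    by_contra c
    exact ht ⟨y, fun ⟨z, b, e⟩ => c (Subtype.ext e ▸ b), (χ.left_inv y.2.1).symm.trans
      (congrArg χ.symm hy)⟩
  let l : X → O := fun x => if h : x ∈ O then ⟨x, h⟩ else ⟨x₀, hm x₀ hx₀⟩
  have l1 : ∀ y : O, l y = y := fun y => dif_pos y.2
  have l2 : ∀ x ∈ O, (l x).1 = x := fun x hx => congrArg Subtype.val (l1 ⟨x, hx⟩)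
  have l3 : ∀ m, f m = a → χ (f (l m)) = χ a := fun m b => by rw [l2 m (hm m b), b]
  have s2 : ∀ x ∈ O, ContinuousAt l x := fun x hx =>
    IsInducing.subtypeVal.continuousAt_iff.2 (continuousAt_id.congr (by
      filter_upwards [O.isOpen.mem_nhds hx] with z hz using (l2 z hz).symm))
  refine ⟨U ∩ (χ.source ∩ χ ⁻¹' N), fun x => (r (l x)).1, fun t m => (Φ (χ t) (l m)).1,
    inter_subset_left, hU.inter (χ.isOpen_inter_preimage n1), ⟨ha, hχ, n2⟩,
    fun t ht m b => ?_, fun x hx => ?_, fun x hx => ?_, fun t ht m b => ?_⟩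
  · obtain ⟨k1, k2⟩ := h1 _ ht.2.2 _ (l3 m b)
    exact ⟨χ.injOn (Φ _ _).2.1 ht.2.1 k1, by beta_reduce; rw [l1, k2, l2 m (hm m b)]⟩
  · obtain ⟨k1, k2⟩ := h2 (l x) (by rw [l2 x ⟨hx.2.1, hx.1⟩]; exact hx.2.2)
    rw [l2 x ⟨hx.2.1, hx.1⟩] at k2
    exact ⟨hP0 _ k1, by beta_reduce; rw [l1, k2, l2 x ⟨hx.2.1, hx.1⟩]⟩
  · exact continuous_subtype_val.continuousAt.comp ((h4 _ (by
      rw [l2 x ⟨hx.2.1, hx.1⟩]; exact hx.2.2)).continuousAt.comp (s2 x ⟨hx.2.1, hx.1⟩))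
  · obtain ⟨x, k1, -, σ, k2, k3, -⟩ := h5 _ ht.2.2 _ (l3 m b)
    have k4 : ContinuousAt (fun k : Y × X => l k.2) (t, m) :=
      ContinuousAt.comp (f := Prod.snd) (x := (t, m)) (s2 m (hm m b)) continuousAt_snd
    have k5 : ContinuousAt (fun k : Y × X => (χ k.1, (chartAt (Cm p × Cm d) x (l k.2)).2))
        (t, m) :=
      (ContinuousAt.comp (f := Prod.fst) (x := (t, m)) (χ.continuousAt ht.2.1)
        continuousAt_fst).prodMk (continuousAt_snd.comp (ContinuousAt.comp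
          (f := fun k : Y × X => l k.2) (x := (t, m))
          ((chartAt (Cm p × Cm d) x).continuousAt k1) k4))
    have k6 : ∀ᶠ k : Y × X in 𝓝 (t, m), f k.2 = a → (Φ (χ k.1) (l k.2)).1 =
        (σ (χ k.1, (chartAt (Cm p × Cm d) x (l k.2)).2)).1 := by
      filter_upwards [k5.eventually k3, k4.eventually
        ((chartAt (Cm p × Cm d) x).open_source.mem_nhds k1)] with k e1 e2 e3
      refine congrArg Subtype.val (Eq.trans (congrArg (Φ _) ?_) e1)
      exact ((chartAt (Cm p × Cm d) x).left_inv e2).symm.trans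
        (congrArg _ (Prod.ext ((hP x _ e2).trans (l3 _ e3)) rfl))
    exact (continuous_subtype_val.continuousAt.comp (ContinuousAt.comp
      (f := fun k : Y × X => (χ k.1, (chartAt (Cm p × Cm d) x (l k.2)).2)) (x := (t, m))
      k2.continuousAt k5)).continuousWithinAt.congr_of_eventuallyEq
      (eventually_nhdsWithin_iff.2 k6) (k6.self_of_nhds b)

theorem mkTriv {X Y B : Type} [TopologicalSpace X] [TopologicalSpace Y] [TopologicalSpace B]
    {f : X → Y} {A : Set X} {κ : B → Y} (hκ : IsEmbedding κ) {pj : A → B} (hpj : Continuous pj)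
    (e : ∀ z, κ (pj z) = f z) {a : Y} {W : Set Y} {r : X → X} {Φ : Y → X → X} (hW : IsOpen W)
    (hA : ∀ x, f x ∈ W → x ∈ A) (h1 : ∀ t ∈ W, ∀ m, f m = a → f (Φ t m) = t ∧ r (Φ t m) = m)
    (h2 : ∀ x, f x ∈ W → f (r x) = a ∧ Φ (f x) (r x) = x) (h3 : ∀ x, f x ∈ W → ContinuousAt r x)
    (h4 : ∀ t ∈ W, ∀ m, f m = a →
      ContinuousWithinAt (fun k : Y × X => Φ k.1 k.2) {k | f k.2 = a} (t, m))
    (m₀ : ↥{x | f x = a}) (z₀ : A) :
    ∃ e : Trivialization ↥{x | f x = a} pj, e.baseSet = κ ⁻¹' W := by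
  classical
  let ρ : A → ↥{x | f x = a} := fun z => if h : f (r z) = a then ⟨r z, h⟩ else m₀
  let ψ : B × ↥{x | f x = a} → A := fun q =>
    if h : Φ (κ q.1) q.2 ∈ A then ⟨_, h⟩ else z₀
  have ρv : ∀ z : A, f z ∈ W → (ρ z).1 = r z := fun z hz =>
    congrArg Subtype.val (dif_pos (h2 z hz).1)
  have ψv : ∀ q : B × ↥{x | f x = a}, κ q.1 ∈ W → (ψ q).1 = Φ (κ q.1) q.2 := fun q hq =>
    congrArg Subtype.val (dif_pos (hA _ (by rw [(h1 _ hq _ q.2.2).1]; exact hq)))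
  have hs : ∀ z : A, z ∈ pj ⁻¹' (κ ⁻¹' W) → f z ∈ W := fun z hz => e z ▸ hz
  have ht : ∀ q : B × ↥{x | f x = a}, κ q.1 ∈ W → f (ψ q) = κ q.1 := fun q hq => by
    rw [ψv q hq, (h1 _ hq _ q.2.2).1]
  refine ⟨{
    toFun := fun z => (pj z, ρ z)
    invFun := ψ
    source := pj ⁻¹' (κ ⁻¹' W)
    target := (κ ⁻¹' W) ×ˢ univ
    map_source' := fun z hz => ⟨hz, trivial⟩
    map_target' := fun q hq => ?_
    left_inv' := fun z hz => Subtype.ext ?_
    right_inv' := fun q hq => Prod.ext (hκ.injective ?_) (Subtype.ext ?_)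
    open_source := (hW.preimage hκ.continuous).preimage hpj
    open_target := (hW.preimage hκ.continuous).prod isOpen_univ
    continuousOn_toFun := hpj.continuousOn.prodMk (IsInducing.subtypeVal.continuousOn_iff.2 ?_)
    continuousOn_invFun := IsInducing.subtypeVal.continuousOn_iff.2 ?_
    baseSet := κ ⁻¹' W
    open_baseSet := hW.preimage hκ.continuous
    source_eq := rfl
    target_eq := rfl
    proj_toFun := fun _ _ => rfl }, rfl⟩
  · show κ (pj (ψ q)) ∈ W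
    rw [e, ht q hq.1]
    exact hq.1
  · refine (ψv (pj z, ρ z) hz).trans ?_
    show Φ (κ (pj z)) (ρ z) = z
    rw [e, ρv z (hs z hz), (h2 _ (hs z hz)).2]
  · exact (e _).trans (ht q hq.1)
  · show (ρ (ψ q)).1 = q.2
    rw [ρv _ (by rw [ht q hq.1]; exact hq.1), ψv q hq.1, (h1 _ hq.1 _ q.2.2).2]
  · exact ContinuousOn.congr (f := fun z : A => r z) (fun z hz => (ContinuousAt.comp
      (f := Subtype.val) (x := z) (h3 _ (hs z hz))
      continuous_subtype_val.continuousAt).continuousWithinAt) fun z hz => ρv z (hs z hz)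
  · refine ContinuousOn.congr (f := fun q : B × ↥{x | f x = a} => Φ (κ q.1) q.2)
      (fun q hq => ?_) fun q hq => ψv q hq.1
    exact ContinuousWithinAt.comp (f := fun q : B × ↥{x | f x = a} => (κ q.1, q.2.1)) (x := q)
      (h4 _ hq.1 _ q.2.2) (((hκ.continuous.comp continuous_fst).prodMk
        (continuous_subtype_val.comp continuous_snd)).continuousWithinAt) fun q _ => q.2.2

theorem common {Z B : Type} [TopologicalSpace Z] [TopologicalSpace B] [PreconnectedSpace B]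
    {pj : Z → B} (F : B → Type) [∀ b, TopologicalSpace (F b)]
    (h : ∀ b, ∃ e : Trivialization (F b) pj, b ∈ e.baseSet) (b₀ b : B) :
    ∃ e : Trivialization (F b₀) pj, b ∈ e.baseSet := by
  have : IsClopen {b | ∃ e : Trivialization (F b₀) pj, b ∈ e.baseSet} := by
    refine ⟨isClosed_of_closure_subset fun c hc => ?_, isOpen_iff_mem_nhds.2 fun c ⟨e, he⟩ =>
      mem_of_superset (e.open_baseSet.mem_nhds he) fun _ h => ⟨e, h⟩⟩
    obtain ⟨e, he⟩ := h c
    obtain ⟨c', h1, e', h2⟩ := mem_closure_iff.1 hc _ e.open_baseSet he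
    exact ⟨e.transFiberHomeomorph ((e.preimageSingletonHomeomorph h1).symm.trans
      (e'.preimageSingletonHomeomorph h2)), he⟩
  exact Set.eq_univ_iff_forall.1 (this.eq_univ ⟨b₀, h b₀⟩) b

end Vale.Agent.P002G
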