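import Vale.Agent.P002G14.St
import Vale.Agent.P002G14.Ehr
import Vale.Agent.P002E46.Main

/-!
# P002: holomorphic fibrations over products of curves
-/

open scoped Manifold ContDiff Topology
open Set Filter Topology Bundle

namespace Vale.Agent.P002G

open Vale.Agent.P002D Vale.Agent.P002E Vale.Agent.P002B14 Vale.Agent.P002Z

theorem om (M : Type) [TopologicalSpace M] [ChartedSpace ℂ M] [IsManifold 𝓘(ℂ) 1 M] :
    IsManifold 𝓘(ℂ) ω M := by
  refine isManifold_of_contDiffOn 𝓘(ℂ) ω M fun e e' he he' => ?_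
  have h := (mem_groupoid_of_pregroupoid.1 ((contDiffGroupoid 1 𝓘(ℂ)).compatible he he')).1
  refine DifferentiableOn.contDiffOn (ContDiffOn.differentiableOn h one_ne_zero) ?_
  simpa using (e.symm ≫ₕ e').open_source

section
variable {n : ℕ} {X M : Type} [TopologicalSpace X] [ChartedSpace (Fin n → ℂ) X]
  [IsManifold 𝓘(ℂ, Fin n → ℂ) ω X] [TopologicalSpace M] [ChartedSpace ℂ M] [IsManifold 𝓘(ℂ) ω M]
  {g : X → M} (hg : ContMDiff 𝓘(ℂ, Fin n → ℂ) 𝓘(ℂ) ω g)
include hg

theorem lc {q : M} {x : X} (hx : g x ∈ (chartAt ℂ q).source) :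
    ContDiffAt ℂ ω (fun u => chartAt ℂ q (g ((chartAt (Fin n → ℂ) x).symm u)))
      (chartAt (Fin n → ℂ) x x) := by
  have h := (chartAt (Fin n → ℂ) x).left_inv (mem_chart_source _ x)
  exact contMDiffAt_iff_contDiffAt.1 ((contMDiffAt_of_mem_maximalAtlas
    (IsManifold.chart_mem_maximalAtlas q) hx).comp_of_eq ((hg x).comp_of_eq
      (contMDiffAt_symm_of_mem_maximalAtlas (IsManifold.chart_mem_maximalAtlas x)
        (mem_chart_target _ x)) h) (congrArg g h))

theorem der {q : M} {x : X} (hx : g x ∈ (chartAt ℂ q).source) :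
    HasMFDerivAt 𝓘(ℂ, Fin n → ℂ) 𝓘(ℂ)
      (fun u => chartAt ℂ q (g ((chartAt (Fin n → ℂ) x).symm u))) (chartAt (Fin n → ℂ) x x)
      ((mfderiv 𝓘(ℂ) 𝓘(ℂ) (chartAt ℂ q) (g x)).comp ((mfderiv 𝓘(ℂ, Fin n → ℂ) 𝓘(ℂ) g x).comp
        (mfderiv 𝓘(ℂ, Fin n → ℂ) 𝓘(ℂ, Fin n → ℂ) (chartAt (Fin n → ℂ) x).symm
          (chartAt (Fin n → ℂ) x x)))) := by
  set φ := chartAt (Fin n → ℂ) x
  have hφx : φ.symm (φ x) = x := φ.left_inv (mem_chart_source _ x)
  have a1 := ((mdifferentiable_chart (I := 𝓘(ℂ, Fin n → ℂ)) x).mdifferentiableAt_symm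
    (mem_chart_target _ x)).hasMFDerivAt
  have a2 : HasMFDerivAt 𝓘(ℂ, Fin n → ℂ) 𝓘(ℂ) g (φ.symm (φ x))
      (mfderiv 𝓘(ℂ, Fin n → ℂ) 𝓘(ℂ) g x) := by
    rw [hφx]; exact ((hg x).mdifferentiableAt (by simp)).hasMFDerivAt
  have a3 := HasMFDerivAt.comp (φ x) a2 a1
  have a4 : HasMFDerivAt 𝓘(ℂ) 𝓘(ℂ) (chartAt ℂ q) ((g ∘ φ.symm) (φ x))
      (mfderiv 𝓘(ℂ) 𝓘(ℂ) (chartAt ℂ q) (g x)) := by
    have : (g ∘ φ.symm) (φ x) = g x := congrArg g hφx
    rw [this]
    exact ((mdifferentiable_chart (I := 𝓘(ℂ)) q).mdifferentiableAt hx).hasMFDerivAt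
  exact HasMFDerivAt.comp (φ x) a4 a3

theorem ident [T2Space M] [PreconnectedSpace X] {q : M} {y : X} (hy : ∀ᶠ z in 𝓝 y, g z = q)
    (x : X) : g x = q := by
  have : IsClopen {x | ∀ᶠ z in 𝓝 x, g z = q} := by
    refine ⟨isClosed_of_closure_subset fun x hx => ?_, isOpen_setOfPred_eventually_nhds⟩
    have h0 : g x = q := (isClosed_eq hg.continuous continuous_const).closure_subset_iff.2
      (fun z hz => Eventually.self_of_nhds hz) hx
    have hq : g x ∈ (chartAt ℂ q).source := h0 ▸ mem_chart_source ℂ _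
    set φ := chartAt (Fin n → ℂ) x
    have hxφ : x ∈ φ.source := mem_chart_source _ x
    obtain ⟨ε, hε, hb⟩ := Metric.eventually_nhds_iff_ball.1
      (lc hg hq).analyticAt.eventually_analyticAt
    have h1 : ∀ᶠ z in 𝓝 x, z ∈ φ.source ∧ φ z ∈ Metric.ball (φ x) ε :=
      (φ.open_source.eventually_mem hxφ).and
        ((φ.continuousAt hxφ).eventually (Metric.ball_mem_nhds _ hε))
    obtain ⟨y, h2, h3, h4⟩ := ((mem_closure_iff_frequently.1 hx).and_eventually h1).exists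
    have h5 := AnalyticOnNhd.eqOn_of_preconnected_of_eventuallyEq (fun u hu => hb u hu)
      (analyticOnNhd_const (v := chartAt ℂ q q)) (convex_ball _ _).isPreconnected h4 (by
        filter_upwards [(φ.tendsto_symm h3).eventually h2] with u hu using congrArg _ hu)
    filter_upwards [h1, hg.continuous.continuousAt ((chartAt ℂ q).open_source.mem_nhds hq)]
      with z a b
    have h6 : chartAt ℂ q (g (φ.symm (φ z))) = chartAt ℂ q q := h5 a.2
    rw [φ.left_inv a.1] at h6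
    exact (chartAt ℂ q).injOn b (mem_chart_source ℂ q) h6
  have h : ∀ᶠ z in 𝓝 x, g z = q := Set.eq_univ_iff_forall.1 (this.eq_univ ⟨y, hy⟩) x
  exact h.self_of_nhds

end

variable {k : ℕ} {S : Fin k → Type} [∀ i, TopologicalSpace (S i)] [∀ i, T2Space (S i)]
  [∀ i, CompactSpace (S i)] [∀ i, ConnectedSpace (S i)] [∀ i, ChartedSpace ℂ (S i)]
  [∀ i, IsManifold 𝓘(ℂ) 1 (S i)] (D : ∀ i, Set (S i)) (hD : ∀ i, (D i).Finite)

include hD

theorem holo : Holo D := by
  classical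
  rintro d X _ _ _ _ _ f E _ h x₀ ⟨_, hR⟩ hon rfl ⟨h1, h2⟩ hE
  have := fun i => om (S i)
  have hc : ∀ i, Continuous (f i) := fun i => (f i).continuous
  have hf : ∀ i, ContMDiff 𝓘(ℂ, Fin (k + d) → ℂ) 𝓘(ℂ) ω (f i) := fun i x =>
    contMDiffAt_iff.2 ⟨(hc i).continuousAt,
      ((analyticAt_pi_iff.1 (hR x).1 i).contDiffAt (n := ω)).contDiffWithinAt⟩
  have hs : ∀ x ∉ {x | ∃ i, f i x ∈ D i}, ∀ w : Fin k → ℂ, ∃ v, ∀ i,
      mfderiv 𝓘(ℂ, Fin (k + d) → ℂ) 𝓘(ℂ) (f i) x v = w i := fun x hx w => by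
    obtain ⟨v, hv⟩ := (hR x).2 hx w
    refine ⟨v, fun i => ?_⟩
    rw [((hf i x).mdifferentiableAt (by simp)).mfderiv, modelWithCornersSelf_coe, range_id,
      fderivWithin_univ, ← hv]
    exact DFunLike.congr_fun (fderiv_apply (hR x).1.differentiableAt i) v
  have ev : ∀ i x, ∀ᶠ y in 𝓝 x, f i y ∈ D i → f i y = f i x := fun i x => by
    filter_upwards [(hc i).continuousAt.eventually (eventually_nhdsWithin_iff.1
      (eventually_notMem_of_finite (hD i) (f i x)))] with y a b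
    by_contra c
    exact a c b
  have eE : {x | ∃ i, f i x ∈ D i}ᶜ = ⋂ i, (f i ⁻¹' D i)ᶜ := by
    ext; simp
  have ho : ∀ i, IsOpen (f i ⁻¹' D i)ᶜ := fun i => ((hD i).isClosed.preimage (hc i)).isOpen_compl
  have hE' : IsClosed {x | ∃ i, f i x ∈ D i} :=
    ⟨eE ▸ isOpen_iInter_of_finite ho⟩
  have hd : Dense {x | ∃ i, f i x ∈ D i}ᶜ := by
    rw [eE]
    refine dense_iInter_of_isOpen ho fun i => interior_eq_empty_iff_dense_compl.1
      (eq_empty_of_forall_notMem fun y hy => x₀.2 ⟨i, ?_⟩)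
    rw [ident (hf i) (q := f i y) (y := y) (by
      filter_upwards [mem_interior_iff_mem_nhds.1 hy, ev i y] with z a b using b a)]
    exact interior_subset (s := f i ⁻¹' D i) hy
  have hT : Thin E {x | ∃ i, f i x ∈ D i} := thin_an (V := Fin (k + d) → ℂ) hE hE' fun x _ => by
    set φ := chartAt (Fin (k + d) → ℂ) x
    have hxφ : x ∈ φ.source := mem_chart_source _ x
    refine ⟨fun u => ∏ i, if f i x ∈ D i then
      chartAt ℂ (f i x) (f i (φ.symm u)) - chartAt ℂ (f i x) (f i x) else 1,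
      Finset.analyticAt_fun_prod _ fun i _ => ?_, fun hg => ?_, ?_⟩
    · split_ifs
      exacts [(lc (hf i) (mem_chart_source ℂ _)).analyticAt.sub analyticAt_const,
        analyticAt_const]
    · obtain ⟨y, a, b, c, e⟩ := ((mem_closure_iff_frequently.1 (hd x)).and_eventually
        (((φ.continuousAt hxφ).eventually hg).and ((φ.open_source.eventually_mem hxφ).and
          (eventually_all.2 fun i => (hc i).continuousAt.eventually
            (chart_source_mem_nhds ℂ (f i x)))))).exists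
      obtain ⟨i, -, hi⟩ := Finset.prod_eq_zero_iff.1 b
      split_ifs at hi with hm
      · rw [φ.left_inv c, sub_eq_zero] at hi
        exact a ⟨i, (chartAt ℂ (f i x)).injOn (e i) (mem_chart_source ℂ _) hi ▸ hm⟩
      · exact one_ne_zero hi
    · filter_upwards [φ.open_source.eventually_mem hxφ, eventually_all.2 fun i => ev i x]
        with y a b ⟨i, hi⟩
      exact Finset.prod_eq_zero (Finset.mem_univ i) (by
        rw [if_pos (b i hi ▸ hi), φ.left_inv a, b i hi, sub_self])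
  let g : ∀ i, C(↥{x | ∃ i, f i x ∈ D i}ᶜ, ↥(D i)ᶜ) := fun i =>
    ⟨fun z => ⟨f i z, fun h => z.2 ⟨i, h⟩⟩, ((hc i).comp continuous_subtype_val).subtype_mk _⟩
  have hg : ∀ p, p ∈ good g := fun p i => ⟨f i p, (hc i).continuousAt.tendsto.comp tendsto_comap⟩
  have hp := pcs D hD
  have hκ : IsEmbedding (fun (b : ∀ i, ↥(D i)ᶜ) i => (b i).1) :=
    IsEmbedding.piMap fun i => IsEmbedding.subtypeVal
  have hb : ∀ b : ∀ i, ↥(D i)ᶜ, ∃ e : Trivialization ↥{y | (f · y) = fun i => (b i).1}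
      (ContinuousMap.pi g), b ∈ e.baseSet := fun b => by
    obtain ⟨m, hm⟩ := hon fun i => (b i).1
    replace hm : ∀ i, f i m = (b i).1 := congrFun hm
    obtain ⟨W, r, Φ, w1, w2, w3, w4, w5, w6, w7⟩ := ehr (p := k) (d := d) (f := fun y i => f i y)
      (continuous_pi hc) (OpenPartialHomeomorph.pi fun i => chartAt ℂ (b i).1)
      (U := univ.pi fun i => (D i)ᶜ) (isOpen_set_pi finite_univ fun i _ =>
        (hD i).isClosed.isOpen_compl) (a := fun i => (b i).1) (fun i _ => (b i).2)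
      (fun i _ => mem_chart_source ℂ _) (fun x a c => by
        refine prodChart (continuous_pi hc) a
          (contDiffAt_pi.2 fun i => lc (hf i) (a i trivial)) ?_
        have key := (hasFDerivAt_pi.2 fun i =>
          hasMFDerivAt_iff_hasFDerivAt.1 (der (hf i) (a i trivial))).fderiv
        intro w
        choose s e1 using fun i => (mdifferentiable_chart (I := 𝓘(ℂ)) (b i).1).mfderiv_surjective
          (a i trivial) (w i)
        obtain ⟨v, e2⟩ := hs x (fun ⟨i, hi⟩ => c i trivial hi) s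
        obtain ⟨u, e3⟩ := (mdifferentiable_chart (I := 𝓘(ℂ, Fin (k + d) → ℂ))
          x).symm.mfderiv_surjective (mem_chart_target _ x) v
        refine ⟨u, (DFunLike.congr_fun key u).trans (funext fun i => ?_)⟩
        exact (congrArg _ ((congrArg _ e3).trans (e2 i))).trans (e1 i)) (funext hm)
    obtain ⟨e, he⟩ := mkTriv hκ (ContinuousMap.pi g).continuous (fun _ => rfl) w2
      (fun x hx ⟨i, hi⟩ => w1 hx i trivial hi) w4 w5 w6 w7 ⟨m, funext hm⟩ x₀
    exact ⟨e, he ▸ w3⟩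
  have := singular D hD X E _ h x₀ g hT (fun p _ => hg p) (Or.inl ⟨_, _, ⟨x₀.1, rfl⟩, h1,
    common _ hb (ContinuousMap.pi g x₀), h2 _⟩)
  rwa [show E ∩ good g = E from inter_eq_left.2 fun p _ => hg p] at this

end Vale.Agent.P002G
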