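import Vale.Agent.P002E46.St

/-!
# P002: holomorphic fibrations
-/

open scoped Manifold ContDiff

namespace Vale.Agent.P002G

open Vale.Agent.P002D Vale.Agent.P002E

variable {V W : Type} [NormedAddCommGroup V] [NormedSpace ℂ V] [NormedAddCommGroup W]
  [NormedSpace ℂ W] {k : ℕ} {S : Fin k → Type} [∀ i, TopologicalSpace (S i)]
  [∀ i, ChartedSpace ℂ (S i)] {X : Type} [TopologicalSpace X] [ChartedSpace V X]

/-- `g` is analytic at `u`, and its differential there is onto if `p` holds. -/
def Reg (g : V → W) (u : V) (p : Prop) : Prop :=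
  AnalyticAt ℂ g u ∧ (p → Function.Surjective (fderiv ℂ g u))

variable (V) (f : ∀ i, C(X, S i))

/-- The map `X → ∏ S i` in the charts at `x` and `f i x`. -/
noncomputable def loc (x : X) (u : V) (i : Fin k) : ℂ :=
  chartAt ℂ (f i x) (f i ((chartAt V x).symm u))

/-- `X` is a complex manifold, `X → ∏ S i` is holomorphic, and a submersion outside `E'`. -/
def Hol (E' : Set X) : Prop :=
  IsManifold 𝓘(ℂ, V) ω X ∧ ∀ x, Reg (loc V f x) (chartAt V x x) (x ∉ E')

/-- `F` is path connected with finitely generated, virtually solvable `π_1`. -/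
def Solv (F : Set X) : Prop :=
  PathConnectedSpace F ∧ ∀ y : F, Group.FG (FundamentalGroup F y) ∧ VirtSolv (FundamentalGroup F y)

/-- Compact connected complex manifolds `X` with a holomorphic map onto `∏ S i` which is a
submersion outside `E' = ⋃ (f i)⁻¹ (D i)`; the boundary is any closed `E ⊆ E'`. -/
def Holo (D : ∀ i, Set (S i)) : Prop :=
  ∀ (d : ℕ) (X : Type) [TopologicalSpace X] [T2Space X] [CompactSpace X] [ConnectedSpace X]
    [ChartedSpace (Fin (k + d) → ℂ) X] (f : ∀ i, C(X, S i)) (E E' : Set X) (h : E'ᶜ ⊆ Eᶜ)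
    (x₀ : ↥E'ᶜ), Hol (Fin (k + d) → ℂ) f E' → Function.Surjective (ContinuousMap.pi f) →
    E' = {x | ∃ i, f i x ∈ D i} → Solv {y | (f · y) = (f · x₀)} → IsClosed E →
    PathConnectedSpace ↥Eᶜ ∧ Group.FG (FundamentalGroup ↥Eᶜ (ContinuousMap.inclusion h x₀)) ∧
      Q1R (push (ContinuousMap.inclusion h) x₀ (discs E E' x₀))

end Vale.Agent.P002G
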